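import Vale.Agent.P097.H779.Ph

/-! # P097 / H779 : [LRE], the real data of the leaves -/

set_option linter.all false

open scoped Topology Real
open Filter Set

namespace Vale.Agent.P097.H779

open Vale.Agent.P097 Vale.Agent.P097.LR

/-- the bounce point as a function of the normal angle -/
noncomputable def zet (a c ψ : ℝ) : ℂ :=
  ((a * Real.cos ψ : ℝ) + (c * Real.sin ψ : ℝ) * Complex.I) / (hE a c ψ : ℝ)

theorem hE_sq (a c ψ : ℝ) : hE a c ψ ^ 2 = a ^ 2 * Real.cos ψ ^ 2 + c ^ 2 * Real.sin ψ ^ 2 :=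
  Real.sq_sqrt (by positivity)

theorem hE_pos {a c : ℝ} (ha : 0 < a) (hc : 0 < c) (ψ : ℝ) : 0 < hE a c ψ := by
  apply Real.sqrt_pos.2
  have h := Real.sin_sq_add_cos_sq ψ
  rcases eq_or_ne (Real.cos ψ) 0 with h0 | h0
  · have h1 : Real.sin ψ ^ 2 = 1 := by rw [h0] at h; linarith
    rw [h0, h1]; positivity
  · positivity

/-- `u = e^{iψ}` -/
theorem alg1 {ψ : ℝ} {n J A B : ℂ} (u : ℂ) (hu : u = Real.cos ψ + Real.sin ψ * Complex.I)
    (h : (2 * Complex.I * n * u) ^ 2 + 4 * J ^ 2 * (A * u ^ 2 + B / 2 * (1 + (u ^ 2) ^ 2)) = 0) :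
    n ^ 2 = J ^ 2 * (A + B * (Real.cos ψ ^ 2 - Real.sin ψ ^ 2 : ℝ)) := by
  have hcs : ((Real.cos ψ : ℝ) : ℂ) ^ 2 + ((Real.sin ψ : ℝ) : ℂ) ^ 2 = 1 := by
    exact_mod_cast Real.cos_sq_add_sin_sq ψ
  have hu0 : u ≠ 0 := by
    intro h0
    have : u * ((Real.cos ψ : ℝ) - (Real.sin ψ : ℝ) * Complex.I) = 1 := by
      rw [hu, ← hcs]
      linear_combination (-(((Real.sin ψ : ℝ) : ℂ) ^ 2)) * Complex.I_sq
    rw [h0, zero_mul] at this
    exact zero_ne_one this
  have h1 : (1 : ℂ) + (u ^ 2) ^ 2 = u ^ 2 * (2 * (Real.cos ψ ^ 2 - Real.sin ψ ^ 2 : ℝ)) := by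
    have hI := Complex.I_sq
    set C : ℂ := ((Real.cos ψ : ℝ) : ℂ) with hC
    set S : ℂ := ((Real.sin ψ : ℝ) : ℂ) with hS
    have e1 : ((Real.cos ψ ^ 2 - Real.sin ψ ^ 2 : ℝ) : ℂ) = C ^ 2 - S ^ 2 := by
      rw [hC, hS]; push_cast; ring
    have e2 : u ^ 2 = C ^ 2 - S ^ 2 + 2 * C * S * Complex.I := by
      rw [hu]; linear_combination S ^ 2 * hI
    have e3 : (1 : ℂ) = (C ^ 2 + S ^ 2) ^ 2 := by rw [hcs]; ring
    rw [e1, e2, e3]
    linear_combination (4 * C ^ 2 * S ^ 2) * hI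
  rw [h1] at h
  have h2 : u ^ 2 * (-4 * n ^ 2 + 4 * J ^ 2 * (A + B * (Real.cos ψ ^ 2 - Real.sin ψ ^ 2 : ℝ))) = 0 := by
    linear_combination h - 4 * n ^ 2 * u ^ 2 * Complex.I_sq
  have h3 := (mul_eq_zero.1 h2).resolve_left (pow_ne_zero 2 hu0)
  linear_combination (-1 / 4 : ℂ) * h3

theorem AB_eq (a c ψ : ℝ) : cA a c + cB a c * (Real.cos ψ ^ 2 - Real.sin ψ ^ 2) = hE a c ψ ^ 2 := by
  rw [hE_sq]
  unfold cA cB
  have h := Real.sin_sq_add_cos_sq ψ
  linear_combination (-(a ^ 2 + c ^ 2) / 2) * h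

/-- real form -/
theorem alg2 {a c ψ n J : ℝ} (u : ℂ) (hu : u = Real.cos ψ + Real.sin ψ * Complex.I)
    (h : (2 * Complex.I * n * u) ^ 2 + 4 * (J : ℂ) ^ 2 *
      (cA a c * u ^ 2 + cB a c / 2 * (1 + (u ^ 2) ^ 2)) = 0) :
    n ^ 2 = J ^ 2 * hE a c ψ ^ 2 := by
  have h1 := alg1 u hu h
  rw [← AB_eq]
  exact_mod_cast h1

theorem alg3 {a c ψ n J : ℝ} (ha : 0 < a) (hc : 0 < c) (hJ : J ≠ 0) (hn : n = J * hE a c ψ)
    (u : ℂ) (hu : u = Real.cos ψ + Real.sin ψ * Complex.I) :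
    2 * Complex.I * n * u / (Complex.I * J * ((a + c) + (a - c) * u ^ 2)) = zet a c ψ := by
  have hcs : ((Real.cos ψ : ℝ) : ℂ) ^ 2 + ((Real.sin ψ : ℝ) : ℂ) ^ 2 = 1 := by
    exact_mod_cast Real.cos_sq_add_sin_sq ψ
  have hh := hE_pos ha hc ψ
  have hh' : ((hE a c ψ : ℝ) : ℂ) ≠ 0 := by exact_mod_cast hh.ne'
  have hsq : ((hE a c ψ : ℝ) : ℂ) ^ 2 = (a : ℂ) ^ 2 * ((Real.cos ψ : ℝ) : ℂ) ^ 2 +
      (c : ℂ) ^ 2 * ((Real.sin ψ : ℝ) : ℂ) ^ 2 := by exact_mod_cast hE_sq a c ψ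
  have hI := Complex.I_sq
  unfold zet
  set C : ℂ := ((Real.cos ψ : ℝ) : ℂ) with hC
  set S : ℂ := ((Real.sin ψ : ℝ) : ℂ) with hS
  have hu1 : u * (C - S * Complex.I) = 1 := by
    rw [hu, ← hcs]
    linear_combination (-(S ^ 2)) * hI
  have hu0 : u ≠ 0 := left_ne_zero_of_mul (by rw [hu1]; exact one_ne_zero)
  have hJ' : (J : ℂ) ≠ 0 := by exact_mod_cast hJ
  set P : ℂ := (a : ℂ) * C + c * S * Complex.I with hP
  set Q : ℂ := (a : ℂ) * C - c * S * Complex.I with hQ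
  have hPQ : P * Q = ((hE a c ψ : ℝ) : ℂ) ^ 2 := by
    rw [hsq, hP, hQ]
    linear_combination (-((c : ℂ) ^ 2 * S ^ 2)) * hI
  have hQ0 : Q ≠ 0 := right_ne_zero_of_mul (by rw [hPQ]; exact pow_ne_zero 2 hh')
  have h1 : (a : ℂ) + c + (a - c) * u ^ 2 = 2 * u * Q := by
    have e : (a : ℂ) + c = (a + c) * (u * (C - S * Complex.I)) := by rw [hu1, mul_one]
    rw [e, hQ]
    have e2 : u ^ 2 = u * (C + S * Complex.I) := by rw [sq]; nth_rw 2 [hu]
    rw [e2]
    ring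
  have h2 : ((a * Real.cos ψ : ℝ) : ℂ) + ((c * Real.sin ψ : ℝ) : ℂ) * Complex.I = P := by
    rw [hP, hC, hS]; push_cast; ring
  rw [h1, h2, hn, Complex.ofReal_mul]
  rw [div_eq_div_iff (mul_ne_zero (mul_ne_zero Complex.I_ne_zero hJ')
    (mul_ne_zero (mul_ne_zero two_ne_zero hu0) hQ0)) hh']
  linear_combination (-2 * Complex.I * J * u) * hPQ

section
variable {a c b₀ r : ℝ} {β J : ℂ → ℂ} (hF : EFac) (hR : RPOS) (hP : PAR a c b₀ r β J)

/-- mean phase -/
noncomputable def mph (hR : RPOS) (β : ℂ → ℂ) (t w : ℝ) : ℝ :=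
  (PW hR β w (t + w / 2) + PW hR β w (t - w / 2)) / 2

/-- half difference -/
noncomputable def dph (hR : RPOS) (β : ℂ → ℂ) (t w : ℝ) : ℝ :=
  (PW hR β w (t + w / 2) - PW hR β w (t - w / 2)) / 2

include hP in
theorem Epm {t w : ℝ} (hw : |w| < r) :
    Et (β w) (t + w / 2) = (Real.cos (mph hR β t w) + Real.sin (mph hR β t w) * Complex.I) *
        (Real.cos (dph hR β t w) + Real.sin (dph hR β t w) * Complex.I) ∧
    Et (β w) (t - w / 2) = (Real.cos (mph hR β t w) + Real.sin (mph hR β t w) * Complex.I) *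
        (Real.cos (dph hR β t w) - Real.sin (dph hR β t w) * Complex.I) := by
  have h1 := PW_eq hR hP hw (t + w / 2)
  have h2 := PW_eq hR hP hw (t - w / 2)
  have e1 : PW hR β w (t + w / 2) = mph hR β t w + dph hR β t w := by unfold mph dph; ring
  have e2 : PW hR β w (t - w / 2) = mph hR β t w + -dph hR β t w := by unfold mph dph; ring
  rw [e1] at h1
  rw [e2] at h2
  push_cast at h1 h2
  rw [add_mul, Complex.exp_add, Complex.exp_mul_I, Complex.exp_mul_I] at h1 h2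
  constructor
  · rw [h1]; push_cast; ring
  · rw [h2, Complex.cos_neg, Complex.sin_neg]; push_cast; ring

include hP in
theorem Epm' {t w : ℝ} (hw : |w| < r) (u : ℂ)
    (hu : u = Real.cos (mph hR β t w) + Real.sin (mph hR β t w) * Complex.I) :
    Et (β w) (t + w / 2) - Et (β w) (t - w / 2) =
      2 * Complex.I * (Real.sin (dph hR β t w) : ℝ) * u ∧
    Et (β w) (t + w / 2) * Et (β w) (t - w / 2) = u ^ 2 := by
  obtain ⟨h1, h2⟩ := Epm hR hP (t := t) hw
  rw [← hu] at h1 h2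
  rw [h1, h2]
  have hcs : ((Real.cos (dph hR β t w) : ℝ) : ℂ) ^ 2 + ((Real.sin (dph hR β t w) : ℝ) : ℂ) ^ 2 = 1 := by
    exact_mod_cast Real.cos_sq_add_sin_sq _
  constructor
  · ring
  · linear_combination u ^ 2 * hcs - (u ^ 2 * ((Real.sin (dph hR β t w) : ℝ) : ℂ) ^ 2) * Complex.I_sq

include hP in
theorem J_eq {w : ℝ} (hw : |w| < r) : J w = ((J w).re : ℂ) := by
  apply Complex.ext
  · simp
  · simp [hP.Jre w hw]

include hP in
theorem sin_sq {r' : ℝ} (hr'r : r' ≤ r) (hB : H60.BQc a c b₀ β J r') {t w : ℝ} (hw : |w| < r') :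
    Real.sin (dph hR β t w) ^ 2 = (J w).re ^ 2 * hE a c (mph hR β t w) ^ 2 := by
  have hb := hP.hb₀
  have hwr : |w| < r := hw.trans_le hr'r
  have h1 := hB t w (by simpa using hw) (by rw [Complex.ofReal_im]; linarith)
    (by rw [Complex.ofReal_im]; positivity)
  obtain ⟨h2, h3⟩ := Epm' hR hP (t := t) hwr _ rfl
  rw [h2, h3, J_eq hP hwr] at h1
  exact alg2 _ rfl h1

include hF hP in
theorem dph_lt {t w : ℝ} (hw : |w| < r) (hw0 : 0 < w) (hw1 : w < 1 / 2) :
    0 < dph hR β t w ∧ dph hR β t w < π / 2 := by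
  have H := PW_ph hR hP hw
  have h1 := H.mono (show t - w / 2 < t + w / 2 by linarith)
  have h2 := H.mono (show t + w / 2 < t - w / 2 + 1 / 2 by linarith)
  rw [H.half hF (bre_pos hP hw)] at h2
  unfold dph
  constructor <;> linarith

include hF hP in
/-- `sin δ = J h` on the leaf. -/
theorem sin_eq {r' : ℝ} (hr'r : r' ≤ r) (hB : H60.BQc a c b₀ β J r') (hc : 0 < c) (hca : c < a)
    {t w : ℝ} (hw : |w| < r') (hw0 : 0 < w) (hw1 : w < 1 / 2) :
    Real.sin (dph hR β t w) = (J w).re * hE a c (mph hR β t w) := by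
  have hwr : |w| < r := hw.trans_le hr'r
  have h1 := sin_sq hR hP hr'r hB (t := t) hw
  obtain ⟨h2, h3⟩ := dph_lt hF hR hP (t := t) hwr hw0 hw1
  have hpi := Real.pi_pos
  have h4 : 0 < Real.sin (dph hR β t w) := Real.sin_pos_of_pos_of_lt_pi h2 (by linarith)
  have h5 := (hP.Jpos w hw0 (by rwa [abs_of_pos hw0] at hwr)).1
  have h6 := hE_pos (hc.trans hca) hc (mph hR β t w)
  rw [← mul_pow] at h1
  exact (sq_eq_sq₀ h4.le (by positivity)).1 h1

include hP in
theorem mph_even {t w : ℝ} (hw : |w| < r) : mph hR β t (-w) = mph hR β t w := by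
  unfold mph
  rw [PW_even hR hP hw]
  rw [show t + -w / 2 = t - w / 2 by ring, show t - -w / 2 = t + w / 2 by ring]
  ring

include hP in
theorem dph_odd {t w : ℝ} (hw : |w| < r) : dph hR β t (-w) = -dph hR β t w := by
  unfold dph
  rw [PW_even hR hP hw]
  rw [show t + -w / 2 = t - w / 2 by ring, show t - -w / 2 = t + w / 2 by ring]
  ring

include hF hP in
/-- `Z t w = zet (ψ t w)` for `w ≠ 0`. -/
theorem ZE_ne {r' : ℝ} (hr'r : r' ≤ r) (hB : H60.BQc a c b₀ β J r') (hc : 0 < c) (hca : c < a)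
    {t w : ℝ} (hw : |w| < r') (hw0 : w ≠ 0) (hw1 : |w| < 1 / 2) :
    ZE a c β J t w = zet a c (mph hR β t w) := by
  have hwr : |w| < r := hw.trans_le hr'r
  have hJ0 : (J w).re ≠ 0 := by
    intro h
    apply hP.Jne w (by simpa using hwr) (by exact_mod_cast hw0)
    rw [J_eq hP hwr, h]; simp
  have hs : Real.sin (dph hR β t w) = (J w).re * hE a c (mph hR β t w) := by
    rcases lt_or_gt_of_ne hw0 with h | h
    · have h1 := sin_eq hF hR hP hr'r hB hc hca (t := t) (w := -w) (by rwa [abs_neg])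
        (by linarith) (by rwa [abs_of_neg h] at hw1)
      rw [mph_even hR hP hwr, dph_odd hR hP hwr, Real.sin_neg, Complex.ofReal_neg,
        hP.Jodd w (by simpa using hwr), Complex.neg_re] at h1
      linarith
    · exact sin_eq hF hR hP hr'r hB hc hca hw h (by rwa [abs_of_pos h] at hw1)
  unfold ZE
  rw [if_neg (by exact_mod_cast hw0)]
  obtain ⟨h2, h3⟩ := Epm' hR hP (t := t) hwr _ rfl
  rw [h2, h3, J_eq hP hwr]
  exact alg3 (hc.trans hca) hc hJ0 hs _ rfl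

include hP in
theorem dJ_real : deriv J 0 = ((deriv J 0).re : ℂ) ∧ 0 < (deriv J 0).re := by
  have hJ : HasDerivAt J (deriv J 0) 0 :=
    (hP.dJ.differentiableAt (Metric.ball_mem_nhds 0 hP.hr)).hasDerivAt
  have h2 : HasDerivAt (fun x : ℝ => J x) (deriv J 0) 0 := by
    apply HasDerivAt.comp_ofReal
    simpa using hJ
  have him : HasDerivAt (fun x : ℝ => (J x).im) (deriv J 0).im 0 := by
    have h3 := (Complex.imCLM.hasFDerivAt (x := J ((0 : ℝ) : ℂ))).comp_hasDerivAt (0 : ℝ) h2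
    exact h3
  have hre : HasDerivAt (fun x : ℝ => (J x).re) (deriv J 0).re 0 := by
    have h3 := (Complex.reCLM.hasFDerivAt (x := J ((0 : ℝ) : ℂ))).comp_hasDerivAt (0 : ℝ) h2
    exact h3
  have hball : ∀ᶠ x : ℝ in 𝓝 0, |x| < r :=
    (continuous_abs.continuousAt (x := (0 : ℝ))).eventually
      (gt_mem_nhds (by rw [abs_zero]; exact hP.hr))
  have h0 : (deriv J 0).im = 0 := by
    refine him.unique ((hasDerivAt_const (0 : ℝ) (0 : ℝ)).congr_of_eventuallyEq ?_)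
    filter_upwards [hball] with x hx
    exact hP.Jre x hx
  have h1 : 0 ≤ (deriv J 0).re := by
    have h3 := hre.tendsto_slope.mono_left (nhdsWithin_mono (0 : ℝ) (t := {0}ᶜ) (s := Ioi 0)
      (fun x hx => ne_of_gt hx))
    refine ge_of_tendsto h3 ?_
    filter_upwards [self_mem_nhdsWithin, hball.filter_mono nhdsWithin_le_nhds] with x hx hxr
    have hx' : 0 < x := hx
    rw [abs_of_pos hx'] at hxr
    have h4 := (hP.Jpos x hx' hxr).1
    rw [slope_def_field]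
    have h5 : (J ((0 : ℝ) : ℂ)).re = 0 := by
      rw [Complex.ofReal_zero, H60.J0 hP]; rfl
    rw [h5, sub_zero, sub_zero]
    positivity
  have h3 : deriv J 0 = ((deriv J 0).re : ℂ) := by
    apply Complex.ext
    · simp
    · simp [h0]
  refine ⟨h3, lt_of_le_of_ne h1 fun h => hP.J' ?_⟩
  rw [h3, ← h]; simp

include hF hP in
/-- `Z t 0 = zet (Ψ₀ t)`. -/
theorem ZE_zero {r' : ℝ} (hr' : 0 < r') (hr'r : r' ≤ r) (hB : H60.BQc a c b₀ β J r') (hc : 0 < c)
    (hca : c < a) (t : ℝ) : ZE a c β J t 0 = zet a c (PW hR β 0 t) := by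
  have hb := hP.hb₀
  have h0r : |(0 : ℝ)| < r := by rw [abs_zero]; exact hP.hr
  have H := PW_ph hR hP h0r
  have hV : ((t : ℝ) : ℂ) ∈ H60.VT b₀ :=
    ⟨by rw [Complex.ofReal_im]; linarith, by rw [Complex.ofReal_im]; linarith⟩
  have h1 := H60.br hF hP hr' hr'r hB (w := 0) (t := t) (by rw [norm_zero]; exact hr')
    (by rw [Complex.ofReal_im]; linarith) (by rw [Complex.ofReal_im]; linarith)
  rw [H60.N1_zero hF hP hV, H60.J1_zero] at h1
  obtain ⟨hd1, hd2⟩ := dJ_real hP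
  -- the derivative of `E`
  have hEq : ∀ x : ℝ, Et (β 0) x = Complex.exp (PW hR β 0 x * Complex.I) := by
    intro x
    have := PW_eq hR hP h0r x
    rwa [Complex.ofReal_zero] at this
  set u : ℂ := Real.cos (PW hR β 0 t) + Real.sin (PW hR β 0 t) * Complex.I with hu
  have hEu : Et (β 0) t = u := by
    rw [hEq, Complex.exp_mul_I, hu]; push_cast; ring
  have hdE : deriv (Et (β 0)) t = 2 * Complex.I * ((deriv (PW hR β 0) t / 2 : ℝ) : ℂ) * u := by
    have hdiff : DifferentiableAt ℂ (Et (β 0)) t := by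
      have h2 : ((t : ℂ), (0 : ℂ)) ∈ H60.DF b₀ r :=
        ⟨⟨by simp only [Complex.ofReal_im]; linarith, by simp only [Complex.ofReal_im]; linarith⟩,
          by simpa using hP.hr⟩
      have h3 : DifferentiableAt ℂ (fun p : ℂ × ℂ => Et (β p.2) p.1) ((t : ℂ), (0 : ℂ)) :=
        (H60.F_jd hF hP).differentiableAt ((H60.isOpen_DF _ _).mem_nhds h2)
      have h4 : DifferentiableAt ℂ (fun x : ℂ => (x, (0 : ℂ))) (t : ℂ) := by fun_prop
      exact DifferentiableAt.comp (g := fun p : ℂ × ℂ => Et (β p.2) p.1)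
        (f := fun x : ℂ => (x, (0 : ℂ))) (t : ℂ) h3 h4
    have h3 : HasDerivAt (fun x : ℝ => Et (β 0) x) (deriv (Et (β 0)) t) t :=
      HasDerivAt.comp_ofReal hdiff.hasDerivAt
    have h4 : HasDerivAt (fun x : ℝ => Complex.exp (PW hR β 0 x * Complex.I))
        (Complex.exp (PW hR β 0 t * Complex.I) * ((deriv (PW hR β 0) t : ℝ) * Complex.I)) t := by
      have h5 : HasDerivAt (fun x : ℝ => ((PW hR β 0 x : ℝ) : ℂ)) ((deriv (PW hR β 0) t : ℝ) : ℂ) t :=
        (H.an t).differentiableAt.hasDerivAt.ofReal_comp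
      exact (h5.mul_const Complex.I).cexp
    have h5 : (fun x : ℝ => Et (β 0) x) = fun x : ℝ => Complex.exp (PW hR β 0 x * Complex.I) :=
      funext hEq
    rw [h5] at h3
    rw [h3.unique h4, ← hEq, hEu]
    push_cast
    ring
  have hyy : H60.yy β t 0 = u ^ 2 := by
    unfold H60.yy
    simp only [zero_div, add_zero, sub_zero]
    rw [hEu]; ring
  rw [hdE, hyy, hd1] at h1
  have h2 : (deriv (PW hR β 0) t / 2) ^ 2 = (deriv J 0).re ^ 2 * hE a c (PW hR β 0 t) ^ 2 :=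
    alg2 u hu h1
  have h6 := hE_pos (hc.trans hca) hc (PW hR β 0 t)
  have h7 := H.dpos t
  have h3 : deriv (PW hR β 0) t / 2 = (deriv J 0).re * hE a c (PW hR β 0 t) := by
    rw [← mul_pow] at h2
    exact (sq_eq_sq₀ (by positivity) (by positivity)).1 h2
  unfold ZE
  rw [if_pos rfl, hdE, hEu, hd1]
  exact alg3 (hc.trans hca) hc hd2.ne' h3 u hu

end

theorem lre (hEF : EFac) (hR : RPOS) (hBQ : BQ) : LRE := by
  intro a c hc hca b₀ r β J hP
  obtain ⟨r', hr', hr'r, hB⟩ := hBQ a c hc hca b₀ r β J hP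
  have hB' : H60.BQc a c b₀ β J r' := hB
  have ha : 0 < a := hc.trans hca
  have h0r : |(0 : ℝ)| < r := by rw [abs_zero]; exact hP.hr
  have H0 := PW_ph hR hP h0r
  set e : ℝ ≃o ℝ := H0.mono.orderIsoOfSurjective _ H0.surj with he
  have hee : ∀ x, e x = PW hR β 0 x := fun x => rfl
  have hes : ∀ y, PW hR β 0 (e.symm y) = y := fun y => e.apply_symm_apply y
  have hr₂ : 0 < min r' (1 / 2) := by positivity
  have hlt : ∀ w : ℝ, |w| < min r' (1 / 2) → |w| < r' ∧ |w| < r ∧ |w| < 1 / 2 := by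
    intro w hw
    exact ⟨hw.trans_le (min_le_left _ _), (hw.trans_le (min_le_left _ _)).trans_le hr'r,
      hw.trans_le (min_le_right _ _)⟩
  refine ⟨min r' (1 / 2), fun t w => e.symm (mph hR β t w), PW hR β 0, hr₂, ?_, ?_⟩
  · refine ⟨?_, ?_, ?_, ?_, ?_⟩
    · intro p hp
      have hp' := (hlt p.2 hp).2.1
      apply ContinuousAt.continuousWithinAt
      refine ContinuousAt.comp (g := e.symm) (f := fun p : ℝ × ℝ => mph hR β p.1 p.2)
        e.symm.continuous.continuousAt ?_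
      unfold mph
      refine ContinuousAt.div_const (ContinuousAt.add ?_ ?_) 2
      · have h3 : ContinuousAt (fun p : ℝ × ℝ => (p.1 + p.2 / 2, p.2)) p := by fun_prop
        exact ContinuousAt.comp (g := fun p : ℝ × ℝ => PW hR β p.2 p.1)
          (f := fun p : ℝ × ℝ => (p.1 + p.2 / 2, p.2)) (x := p) (PW_cont hEF hR hP hp') h3
      · have h3 : ContinuousAt (fun p : ℝ × ℝ => (p.1 - p.2 / 2, p.2)) p := by fun_prop
        exact ContinuousAt.comp (g := fun p : ℝ × ℝ => PW hR β p.2 p.1)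
          (f := fun p : ℝ × ℝ => (p.1 - p.2 / 2, p.2)) (x := p) (PW_cont hEF hR hP hp') h3
    · intro t
      rw [OrderIso.symm_apply_eq, hee]
      simp [mph]
    · intro t w hw
      have hw' := (hlt w hw).2.1
      rw [OrderIso.symm_apply_eq, hee, H0.per, hes]
      unfold mph
      have h1 := (PW_ph hR hP hw').per (t + w / 2)
      have h2 := (PW_ph hR hP hw').per (t - w / 2)
      rw [show t + 1 + w / 2 = t + w / 2 + 1 by ring, show t + 1 - w / 2 = t - w / 2 + 1 by ring,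
        h1, h2]
      ring
    · intro t w hw
      rw [mph_even hR hP (hlt w hw).2.1]
    · intro t w hw
      obtain ⟨hw1, hw2, hw3⟩ := hlt w hw
      rw [ZE_zero hEF hR hP hr' hr'r hB' hc hca, hes]
      rcases eq_or_ne w 0 with h0 | h0
      · subst h0
        rw [Complex.ofReal_zero, ZE_zero hEF hR hP hr' hr'r hB' hc hca]
        simp [mph]
      · rw [ZE_ne hEF hR hP hr'r hB' hc hca hw1 h0 hw3]
  · refine ⟨H0.an, H0.dpos, H0.per, fun w hw0 hw => ?_⟩
    obtain ⟨hw1, hw2, hw3⟩ := hlt w (by rwa [abs_of_pos hw0])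
    have hw3' : w < 1 / 2 := by rwa [abs_of_pos hw0] at hw3
    obtain ⟨hJ0, hJ1⟩ := hP.Jpos w hw0 (by rwa [abs_of_pos hw0] at hw2)
    refine ⟨(J w).re, hJ0, hJ1, fun t => ?_⟩
    rw [hes, hes]
    have hf : ∀ t, fE a c (J w).re (mph hR β t w) = dph hR β t w := by
      intro t
      unfold fE
      rw [← sin_eq hEF hR hP hr'r hB' hc hca hw1 hw0 hw3']
      obtain ⟨h1, h2⟩ := dph_lt hEF hR hP (t := t) hw2 hw0 hw3'
      exact Real.arcsin_sin (by linarith) h2.le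
    have hlf := H500.Ell.fE_eq a c (J w).re
    rw [hlf, H500.Ell.hE_eq]
    refine (H500.Ell.ok_hE hc hca.le).step (H500.Ell.sm_hE hc hca.le hJ0 hJ1) ?_
    rw [← hlf, hf, hf]
    unfold mph dph
    rw [show t + w + w / 2 = t + w / 2 + w by ring, show t + w - w / 2 = t + w / 2 by ring]
    ring

end Vale.Agent.P097.H779
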