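import Vale.Agent.P097.H779.Par1

/-! # P097 / H779 : [PARE] -/

set_option linter.all false

open scoped Topology ComplexConjugate
open Filter

namespace Vale.Agent.P097.H779

open Vale.Agent.P097 Vale.Agent.P097.LR

/-- The domain of `Et`. -/
def DE : Set (ℂ × ℂ) := {p | 0 < p.2.re ∧ -p.2.re < p.1.im ∧ p.1.im < 3 * p.2.re}

theorem isOpen_DE : IsOpen DE := by
  have h1 : Continuous (fun p : ℂ × ℂ => p.2.re) := Complex.continuous_re.comp continuous_snd
  have h2 : Continuous (fun p : ℂ × ℂ => p.1.im) := Complex.continuous_im.comp continuous_fst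
  exact (isOpen_lt continuous_const h1).inter
    ((isOpen_lt h1.neg h2).inter (isOpen_lt h2 (continuous_const.mul h1)))

theorem Et_conj (hE : EFac) {b t : ℂ} (hb : 0 < b.re) (h1 : -b.re < t.im) (h2 : t.im < b.re) :
    conj (Et b t) = Et (conj b) (-conj t) := by
  obtain ⟨-, hE⟩ := hE
  have h3 := (hE b hb).2.2.2.1 t h1 h2
  have h4 := (hE (conj b) (by simpa using hb)).2.1 (conj t) (by simpa using h2)
    (by simpa using (by linarith : -t.im < b.re))
  have h5 : Et (conj b) (conj t) ≠ 0 := by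
    intro h
    rw [h, mul_zero] at h4
    exact zero_ne_one h4
  exact mul_right_cancel₀ h5 (h3.trans h4.symm)

theorem pare (hE : EFac) (_hO : ODE) (hR : RPOS) (hP : PER) : PARE := by
  intro a c hc hca
  have ha : 0 < a := hc.trans hca
  have hA : 0 < cA a c := by unfold cA; positivity
  have hB : 0 < cB a c := by unfold cB; nlinarith
  have hBA : cB a c < cA a c := by unfold cA cB; nlinarith
  have hm0 : 0 < cB a c / cA a c := by positivity
  have hm1 : cB a c / cA a c < 1 := (div_lt_one hA).2 hBA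
  obtain ⟨b0, hb0, hmb, han, hdm⟩ := hP _ hm0 hm1
  have hre : ∀ᶠ x : ℝ in 𝓝 b0, conj (mC x) = mC x := by
    filter_upwards [lt_mem_nhds hb0] with x hx
    obtain ⟨⟨C, m, -, -, -, hm, -⟩, -⟩ := hR x hx
    rw [hm, Complex.conj_ofReal]
  obtain ⟨bt, hbt, hbt0, hbte, hbtm, hbtc⟩ := bt_ex mC b0 (cA a c) (cB a c) hA han hdm hmb
    (conj_sym mC b0 han hre)
  -- `Et` is jointly analytic near `(0, b0)`
  have hmem : ((0 : ℂ), (b0 : ℂ)) ∈ DE := by
    refine ⟨?_, ?_, ?_⟩ <;> simp <;> linarith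
  have hEan : AnalyticAt ℂ (fun p : ℂ × ℂ => Et p.2 p.1) (0, (b0 : ℂ)) :=
    Hol.analyticAt_of_differentiableOn isOpen_DE hE.1 hmem
  set Φ : ℂ × ℂ → ℂ := fun p =>
    Et (bt p.2) (p.1 / 2) - Et (bt p.2) (-(p.1 / 2)) - 2 * Complex.I * a * p.2 with hΦ
  have hbt2 : AnalyticAt ℂ (fun p : ℂ × ℂ => bt p.2) (0, 0) :=
    AnalyticAt.comp' (g := bt) (f := fun p : ℂ × ℂ => p.2) hbt analyticAt_snd
  have hp1 : AnalyticAt ℂ (fun p : ℂ × ℂ => p.1 / 2) (0, 0) :=
    AnalyticAt.fun_div analyticAt_fst analyticAt_const two_ne_zero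
  have hp2 : AnalyticAt ℂ (fun p : ℂ × ℂ => 2 * Complex.I * a * p.2) (0, 0) :=
    AnalyticAt.fun_mul analyticAt_const analyticAt_snd
  have hE1 : AnalyticAt ℂ (fun p : ℂ × ℂ => Et (bt p.2) (p.1 / 2)) (0, 0) := by
    refine AnalyticAt.comp' (g := fun p : ℂ × ℂ => Et p.2 p.1)
      (f := fun p : ℂ × ℂ => (p.1 / 2, bt p.2)) ?_ ?_
    · simpa [hbt0] using hEan
    · exact AnalyticAt.prod hp1 hbt2
  have hE2 : AnalyticAt ℂ (fun p : ℂ × ℂ => Et (bt p.2) (-(p.1 / 2))) (0, 0) := by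
    refine AnalyticAt.comp' (g := fun p : ℂ × ℂ => Et p.2 p.1)
      (f := fun p : ℂ × ℂ => (-(p.1 / 2), bt p.2)) ?_ ?_
    · simpa [hbt0] using hEan
    · exact AnalyticAt.prod hp1.fun_neg hbt2
  have hΦan : AnalyticAt ℂ Φ (0, 0) := by
    exact (hE1.sub hE2).sub hp2
  have hΦ0 : Φ (0, 0) = 0 := by simp [hΦ]
  have hΦJ : (fun J => Φ (0, J)) = fun J => -(2 * Complex.I * a) * J := by
    funext J
    simp [hΦ]
  have ha' : (a : ℂ) ≠ 0 := by exact_mod_cast ha.ne'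
  have hd0 : -(2 * Complex.I * a) ≠ (0 : ℂ) := by simp [ha']
  have hΦd : HasDerivAt (fun J => Φ (0, J)) (-(2 * Complex.I * a)) 0 := by
    rw [hΦJ]
    simpa using (hasDerivAt_id (0 : ℂ)).const_mul (-(2 * Complex.I * (a : ℂ)))
  obtain ⟨φ, hφ, hφ0, hφe, hφu⟩ := impl Φ hΦan hΦ0 _ hΦd hd0
  have hφt : Tendsto φ (𝓝 0) (𝓝 0) := by
    have := hφ.continuousAt.tendsto
    rwa [hφ0] at this
  have hneg : Tendsto (fun w : ℂ => -w) (𝓝 0) (𝓝 0) := by
    simpa using (continuous_neg (G := ℂ)).tendsto 0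
  have hcj : Tendsto (fun z : ℂ => conj z) (𝓝 (0 : ℂ)) (𝓝 (0 : ℂ)) := by
    simpa using tendsto_conj_nhds 0
  -- oddness
  have hodd : ∀ᶠ w in 𝓝 (0 : ℂ), φ (-w) = -φ w := by
    have ht : Tendsto (fun w : ℂ => (-w, -φ w)) (𝓝 0) (𝓝 ((0 : ℂ), (0 : ℂ))) :=
      hneg.prodMk_nhds (by simpa using hφt.neg)
    filter_upwards [ht.eventually hφu, hφe] with w h1 h2
    apply h1
    have : Φ (-w, -φ w) = -Φ (w, φ w) := by
      simp only [hΦ, hbte]
      rw [neg_div, neg_neg]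
      ring
    rw [this, h2, neg_zero]
  -- realness
  have hconj : ∀ᶠ w in 𝓝 (0 : ℂ), φ (conj w) = conj (φ w) := by
    have ht : Tendsto (fun w : ℂ => (conj w, conj (φ w))) (𝓝 0) (𝓝 ((0 : ℂ), (0 : ℂ))) :=
      hcj.prodMk_nhds (hcj.comp hφt)
    -- smallness
    have hs : ∀ᶠ w in 𝓝 (0 : ℂ), 0 < (bt (φ w)).re ∧ -(bt (φ w)).re < (w / 2).im ∧
        (w / 2).im < (bt (φ w)).re := by
      have hc1 : ContinuousAt (fun w : ℂ => (bt (φ w)).re) 0 := by
        refine Complex.continuous_re.continuousAt.comp ?_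
        refine ContinuousAt.comp (g := bt) ?_ hφ.continuousAt
        rw [hφ0]; exact hbt.continuousAt
      have hc2 : ContinuousAt (fun w : ℂ => (w / 2).im) 0 := by
        refine Complex.continuous_im.continuousAt.comp ?_
        fun_prop
      have e1 : (bt (φ 0)).re = b0 := by rw [hφ0, hbt0, Complex.ofReal_re]
      refine ((hc1.eventually (lt_mem_nhds (a := 0) ?_)).and
        (((hc1.add hc2).eventually (lt_mem_nhds (a := 0) ?_)).and
        ((hc1.sub hc2).eventually (lt_mem_nhds (a := 0) ?_)))).mono ?_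
      · show 0 < (bt (φ 0)).re
        rw [e1]; exact hb0
      · show 0 < (bt (φ 0)).re + ((0 : ℂ) / 2).im
        rw [e1]; simpa using hb0
      · show 0 < (bt (φ 0)).re - ((0 : ℂ) / 2).im
        rw [e1]; simpa using hb0
      · rintro w ⟨h1, h2, h3⟩
        have h2' : 0 < (bt (φ w)).re + (w / 2).im := h2
        have h3' : 0 < (bt (φ w)).re - (w / 2).im := h3
        exact ⟨h1, by linarith, by linarith⟩
    filter_upwards [ht.eventually hφu, hφe, hφt.eventually hbtc, hs] with w h1 h2 h3 h4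
    obtain ⟨hs1, hs2, hs3⟩ := h4
    apply h1
    have h6 : (starRingEnd ℂ) (2 : ℂ) = 2 := Complex.conj_ofNat 2
    have e1 : conj (Et (bt (φ w)) (w / 2)) = Et (bt (conj (φ w))) (-(conj w / 2)) := by
      rw [Et_conj hE hs1 hs2 hs3, h3]
      simp [h6]
    have e2 : conj (Et (bt (φ w)) (-(w / 2))) = Et (bt (conj (φ w))) (conj w / 2) := by
      rw [Et_conj hE hs1 (by simp only [Complex.neg_im]; linarith)
        (by simp only [Complex.neg_im]; linarith), h3]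
      simp [h6]
    have h5 : conj (Φ (w, φ w)) = 0 := by rw [h2, map_zero]
    simp only [hΦ, map_sub, map_mul, e1, e2, Complex.conj_I, Complex.conj_ofReal] at h5
    rw [h6] at h5
    simp only [hΦ]
    linear_combination -h5
  -- the derivative
  have hφd : HasDerivAt φ (deriv φ 0) 0 := hφ.differentiableAt.hasDerivAt
  obtain ⟨-, Ψ, hΨan, hΨd, hΨ0, -, -, hΨ⟩ := hR b0 hb0
  have he0 : e0 b0 = Complex.I * deriv Ψ 0 := by
    have h1 : HasDerivAt (Et b0) (e0 b0) 0 := by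
      have h1 : DifferentiableAt ℂ (fun p : ℂ × ℂ => Et p.2 p.1) (0, (b0 : ℂ)) :=
        hEan.differentiableAt
      have h2 : DifferentiableAt ℂ (fun t : ℂ => (t, (b0 : ℂ))) 0 := by fun_prop
      have h3 : DifferentiableAt ℂ (Et b0) 0 :=
        DifferentiableAt.comp (g := fun p : ℂ × ℂ => Et p.2 p.1)
          (f := fun t : ℂ => (t, (b0 : ℂ))) (0 : ℂ) h1 h2
      exact h3.hasDerivAt
    have h2 : HasDerivAt (fun x : ℝ => Et b0 x) (e0 b0) 0 := by
      apply HasDerivAt.comp_ofReal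
      simpa using h1
    have h3 : HasDerivAt (fun x : ℝ => Complex.exp (Ψ x * Complex.I))
        (Complex.exp (Ψ 0 * Complex.I) * ((deriv Ψ 0 : ℝ) * Complex.I)) 0 := by
      have h4 : HasDerivAt (fun x : ℝ => ((Ψ x : ℝ) : ℂ)) ((deriv Ψ 0 : ℝ) : ℂ) 0 :=
        (hΨan 0).differentiableAt.hasDerivAt.ofReal_comp
      exact (h4.mul_const Complex.I).cexp
    have h4 : (fun x : ℝ => Et b0 x) = fun x : ℝ => Complex.exp (Ψ x * Complex.I) :=
      funext hΨ
    rw [h4] at h2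
    have h5 := h2.unique h3
    rw [h5, hΨ0]
    simp [mul_comm]
  have hdφ : deriv φ 0 = ((deriv Ψ 0 / (2 * a) : ℝ) : ℂ) := by
    -- differentiate `Φ (w, φ w) = 0`
    set L := fderiv ℂ (fun p : ℂ × ℂ => Et p.2 p.1) (0, (b0 : ℂ)) with hL
    have hLd : HasFDerivAt (fun p : ℂ × ℂ => Et p.2 p.1) L (0, (b0 : ℂ)) :=
      hEan.differentiableAt.hasFDerivAt
    have hβ : HasDerivAt (fun w => bt (φ w)) (deriv (fun w => bt (φ w)) 0) 0 := by
      refine DifferentiableAt.hasDerivAt ?_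
      refine DifferentiableAt.comp (g := bt) (0 : ℂ) ?_ hφ.differentiableAt
      rw [hφ0]; exact hbt.differentiableAt
    set β' := deriv (fun w => bt (φ w)) 0
    have hid : HasDerivAt (fun w : ℂ => w / 2) (1 / 2) 0 := (hasDerivAt_id (0 : ℂ)).div_const 2
    have h1 : HasDerivAt (fun w : ℂ => Et (bt (φ w)) (w / 2)) (L (1 / 2, β')) 0 := by
      have h2 : HasDerivAt (fun w : ℂ => (w / 2, bt (φ w))) (1 / 2, β') 0 := hid.prodMk hβ
      have h3 : HasFDerivAt (fun p : ℂ × ℂ => Et p.2 p.1) L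
          ((fun w : ℂ => (w / 2, bt (φ w))) 0) := by
        simpa [hφ0, hbt0] using hLd
      exact h3.comp_hasDerivAt (0 : ℂ) h2
    have h2 : HasDerivAt (fun w : ℂ => Et (bt (φ w)) (-(w / 2))) (L (-(1 / 2), β')) 0 := by
      have h2 : HasDerivAt (fun w : ℂ => (-(w / 2), bt (φ w))) (-(1 / 2), β') 0 :=
        hid.neg.prodMk hβ
      have h3 : HasFDerivAt (fun p : ℂ × ℂ => Et p.2 p.1) L
          ((fun w : ℂ => (-(w / 2), bt (φ w))) 0) := by
        simpa [hφ0, hbt0] using hLd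
      exact h3.comp_hasDerivAt (0 : ℂ) h2
    have h3 : HasDerivAt (fun w : ℂ => Φ (w, φ w))
        (L (1 / 2, β') - L (-(1 / 2), β') - 2 * Complex.I * a * deriv φ 0) 0 :=
      (h1.sub h2).sub (hφd.const_mul _)
    have h4 : HasDerivAt (fun w : ℂ => Φ (w, φ w)) 0 0 :=
      (hasDerivAt_const (0 : ℂ) (0 : ℂ)).congr_of_eventuallyEq hφe
    have h5 := h3.unique h4
    have h6 : L (1 / 2, β') - L (-(1 / 2), β') = e0 b0 := by
      rw [← map_sub]
      have h7 : ((1 / 2 : ℂ), β') - (-(1 / 2), β') = (1, 0) := by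
        ext
        · simp; norm_num
        · simp
      rw [h7]
      have h8 : HasDerivAt (fun t : ℂ => (t, (b0 : ℂ))) (1, 0) 0 :=
        (hasDerivAt_id (0 : ℂ)).prodMk (hasDerivAt_const (0 : ℂ) (b0 : ℂ))
      have h9 : HasDerivAt (Et b0) (L (1, 0)) 0 :=
        HasFDerivAt.comp_hasDerivAt (l := fun p : ℂ × ℂ => Et p.2 p.1)
          (f := fun t : ℂ => (t, (b0 : ℂ))) (0 : ℂ) hLd h8
      exact h9.deriv.symm
    rw [h6, he0] at h5
    have h7 : 2 * Complex.I * (a : ℂ) * deriv φ 0 = Complex.I * deriv Ψ 0 := by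
      linear_combination -h5
    have h8 : (2 * (a : ℂ)) * deriv φ 0 = deriv Ψ 0 := by
      apply mul_left_cancel₀ Complex.I_ne_zero
      linear_combination h7
    push_cast
    rw [eq_div_iff (by simpa using ha')]
    linear_combination h8
  have hφpos : 0 < deriv Ψ 0 / (2 * a) := div_pos (hΨd 0) (by positivity)
  have hdφ0 : deriv φ 0 ≠ 0 := by
    rw [hdφ]; exact_mod_cast hφpos.ne'
  -- eventual statements
  have ev1 : ∀ᶠ w in 𝓝 (0 : ℂ), AnalyticAt ℂ φ w := hφ.eventually_analyticAt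
  have ev2 : ∀ᶠ w in 𝓝 (0 : ℂ), AnalyticAt ℂ bt (φ w) :=
    hφt.eventually hbt.eventually_analyticAt
  have ev3 : ∀ᶠ w in 𝓝 (0 : ℂ), w ≠ 0 → φ w ≠ 0 := by
    have h1 := hφd.eventually_ne (c := 0) hdφ0
    rw [eventually_nhdsWithin_iff] at h1
    filter_upwards [h1] with w hw h
    exact hw h
  have ev4 : ∀ᶠ w in 𝓝 (0 : ℂ), ‖bt (φ w) - b0‖ < b0 / 8 := by
    have hc : ContinuousAt (fun w => ‖bt (φ w) - b0‖) 0 := by
      refine ContinuousAt.norm (ContinuousAt.sub ?_ continuousAt_const)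
      refine ContinuousAt.comp (g := bt) ?_ hφ.continuousAt
      rw [hφ0]; exact hbt.continuousAt
    refine hc.eventually (gt_mem_nhds ?_)
    show ‖bt (φ 0) - b0‖ < b0 / 8
    rw [hφ0, hbt0]; simpa using hb0
  have ev5 : ∀ᶠ w in 𝓝 (0 : ℂ), mC (bt (φ w)) *
      (cA a c - φ w ^ 2 * (cA a c ^ 2 - cB a c ^ 2)) = cB a c := hφt.eventually hbtm
  have ev6 : ∀ᶠ x : ℝ in 𝓝 (0 : ℝ), 0 < x → 0 < (φ x).re := by
    have h1 : HasDerivAt (fun x : ℝ => (φ x).re) (deriv φ 0).re 0 := by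
      have h2 : HasDerivAt (fun x : ℝ => φ x) (deriv φ 0) 0 := by
        apply HasDerivAt.comp_ofReal
        simpa using hφd
      have h3 := (Complex.reCLM.hasFDerivAt (x := φ ((0 : ℝ) : ℂ))).comp_hasDerivAt (0 : ℝ) h2
      exact h3
    have h2 : 0 < (deriv φ 0).re := by
      rw [hdφ, Complex.ofReal_re]; exact hφpos
    have h3 := h1.tendsto_slope.eventually (lt_mem_nhds h2)
    rw [eventually_nhdsWithin_iff] at h3
    filter_upwards [h3] with x hx hpos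
    have h4 := hx hpos.ne'
    rw [slope_def_field] at h4
    simp only [Complex.ofReal_zero, hφ0, Complex.zero_re, sub_zero] at h4
    exact (div_pos_iff_of_pos_right hpos).1 h4
  have ev7 : ∀ᶠ w in 𝓝 (0 : ℂ), (φ w).re * a < 1 := by
    have hc : ContinuousAt (fun w => (φ w).re * a) 0 :=
      (Complex.continuous_re.continuousAt.comp hφ.continuousAt).mul continuousAt_const
    refine hc.eventually (gt_mem_nhds ?_)
    show (φ 0).re * a < 1
    rw [hφ0]; simp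
  have hall := (((ev1.and ev2).and (ev3.and ev4)).and ((ev5.and ev7).and (hodd.and hconj))).and
    (hφe.and (hφt.eventually hbtc))
  obtain ⟨r1, hr1, H1⟩ := Metric.eventually_nhds_iff_ball.1 hall
  obtain ⟨r2, hr2, H2⟩ := Metric.eventually_nhds_iff_ball.1 ev6
  have hr : 0 < min (min r1 r2) (b0 / 9) := by positivity
  refine ⟨b0, min (min r1 r2) (b0 / 9), fun w => bt (φ w), φ, ?_⟩
  have hin : ∀ w : ℂ, ‖w‖ < min (min r1 r2) (b0 / 9) → w ∈ Metric.ball (0 : ℂ) r1 := by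
    intro w hw
    rw [mem_ball_zero_iff]
    exact hw.trans_le ((min_le_left _ _).trans (min_le_left _ _))
  have hin2 : ∀ w : ℝ, |w| < min (min r1 r2) (b0 / 9) → w ∈ Metric.ball (0 : ℝ) r2 := by
    intro w hw
    rw [mem_ball_zero_iff, Real.norm_eq_abs]
    exact hw.trans_le ((min_le_left _ _).trans (min_le_right _ _))
  have hin3 : ∀ w : ℝ, |w| < min (min r1 r2) (b0 / 9) → (w : ℂ) ∈ Metric.ball (0 : ℂ) r1 := by
    intro w hw
    exact hin w (by simpa using hw)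
  refine
    { hb₀ := hb0
      hr := hr
      dβ := ?_
      dJ := ?_
      β0 := by simp only [hφ0, hbt0]
      βev := ?_
      Jodd := ?_
      J' := hdφ0
      Jne := ?_
      βre := ?_
      Jre := ?_
      Jpos := ?_
      near := ?_
      start := ?_
      mod := ?_ }
  · intro w hw
    obtain ⟨⟨⟨⟨h1, h2⟩, h3, h4⟩, ⟨h5, h7⟩, h8, h9⟩, h10, h11⟩ := H1 w (hin w (by simpa using hw))
    exact (DifferentiableAt.comp (g := bt) w h2.differentiableAt
      h1.differentiableAt).differentiableWithinAt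
  · intro w hw
    obtain ⟨⟨⟨⟨h1, h2⟩, h3, h4⟩, ⟨h5, h7⟩, h8, h9⟩, h10, h11⟩ := H1 w (hin w (by simpa using hw))
    exact h1.differentiableAt.differentiableWithinAt
  · intro w hw
    obtain ⟨⟨⟨⟨h1, h2⟩, h3, h4⟩, ⟨h5, h7⟩, h8, h9⟩, h10, h11⟩ := H1 w (hin w hw)
    simp only [h8, hbte]
  · intro w hw
    obtain ⟨⟨⟨⟨h1, h2⟩, h3, h4⟩, ⟨h5, h7⟩, h8, h9⟩, h10, h11⟩ := H1 w (hin w hw)
    exact h8
  · intro w hw
    obtain ⟨⟨⟨⟨h1, h2⟩, h3, h4⟩, ⟨h5, h7⟩, h8, h9⟩, h10, h11⟩ := H1 w (hin w hw)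
    exact h3
  · intro w hw
    obtain ⟨⟨⟨⟨h1, h2⟩, h3, h4⟩, ⟨h5, h7⟩, h8, h9⟩, h10, h11⟩ := H1 w (hin3 w hw)
    rw [Complex.conj_ofReal] at h9
    rw [← h9] at h11
    exact Complex.conj_eq_iff_im.1 h11.symm
  · intro w hw
    obtain ⟨⟨⟨⟨h1, h2⟩, h3, h4⟩, ⟨h5, h7⟩, h8, h9⟩, h10, h11⟩ := H1 w (hin3 w hw)
    rw [Complex.conj_ofReal] at h9
    exact Complex.conj_eq_iff_im.1 h9.symm
  · intro w hw0 hw
    have hw' : |w| < min (min r1 r2) (b0 / 9) := by rwa [abs_of_pos hw0]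
    obtain ⟨⟨⟨⟨h1, h2⟩, h3, h4⟩, ⟨h5, h7⟩, h8, h9⟩, h10, h11⟩ := H1 w (hin3 w hw')
    exact ⟨H2 w (hin2 w hw') hw0, h7⟩
  · intro w hw
    obtain ⟨⟨⟨⟨h1, h2⟩, h3, h4⟩, ⟨h5, h7⟩, h8, h9⟩, h10, h11⟩ := H1 w (hin w hw)
    exact ⟨h4, (min_le_right _ _).trans_lt (by linarith)⟩
  · intro w hw
    obtain ⟨⟨⟨⟨h1, h2⟩, h3, h4⟩, ⟨h5, h7⟩, h8, h9⟩, h10, h11⟩ := H1 w (hin w hw)
    simp only [hΦ] at h10
    linear_combination h10
  · intro w hw
    obtain ⟨⟨⟨⟨h1, h2⟩, h3, h4⟩, ⟨h5, h7⟩, h8, h9⟩, h10, h11⟩ := H1 w (hin w hw)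
    exact h5

end Vale.Agent.P097.H779
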