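import Vale.Agent.P097.H407.Hol
import Vale.Agent.P097.LR.EDefs

/-! # P097 / H779 : two local inversion lemmas for [PARE] -/

set_option linter.all false

open scoped Topology ComplexConjugate
open Filter

namespace Vale.Agent.P097.H779

/-- Implicit function theorem on `ℂ × ℂ`, with uniqueness. -/
theorem impl (Φ : ℂ × ℂ → ℂ) (hΦ : AnalyticAt ℂ Φ (0, 0)) (h0 : Φ (0, 0) = 0)
    (d : ℂ) (hd : HasDerivAt (fun J => Φ (0, J)) d 0) (hd0 : d ≠ 0) :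
    ∃ φ : ℂ → ℂ, AnalyticAt ℂ φ 0 ∧ φ 0 = 0 ∧ (∀ᶠ w in 𝓝 (0 : ℂ), Φ (w, φ w) = 0) ∧
      (∀ᶠ v in 𝓝 ((0 : ℂ), (0 : ℂ)), Φ v = 0 → φ v.1 = v.2) := by
  have hcd : ContDiffAt ℂ ⊤ Φ (0, 0) := hΦ.contDiffAt
  have hcd1 : ContDiffAt ℂ 1 Φ (0, 0) := hΦ.contDiffAt
  have hfd : HasFDerivAt Φ (fderiv ℂ Φ (0, 0)) (0, 0) := hΦ.differentiableAt.hasFDerivAt
  have hinr : fderiv ℂ Φ (0, 0) (0, 1) = d := by
    have h1 : HasDerivAt (fun J : ℂ => ((0 : ℂ), J)) ((0 : ℂ), (1 : ℂ)) 0 :=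
      (hasDerivAt_const (0 : ℂ) (0 : ℂ)).prodMk (hasDerivAt_id (0 : ℂ))
    have h2 := HasFDerivAt.comp_hasDerivAt (0 : ℂ) hfd h1
    exact h2.unique hd
  have hinv : (fderiv ℂ Φ (0, 0) ∘L .inr ℂ ℂ ℂ).IsInvertible := by
    refine ⟨ContinuousLinearEquiv.unitsEquivAut ℂ (Units.mk0 d hd0), ?_⟩
    ext
    simp [hinr]
  refine ⟨hcd1.implicitFunction (by simp) hinv, ?_, ?_, ?_, ?_⟩
  · have h1 := hcd1.contDiffAt_implicitFunction (by simp) hinv
    obtain ⟨u, hu, hd⟩ := h1.contDiffOn (m := 1) le_rfl (by simp)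
    exact (hd.differentiableOn (by simp)).analyticAt hu
  · exact hcd1.implicitFunction_apply_self (by simp) hinv
  · have h1 := hcd1.eventually_apply_implicitFunction (by simp) hinv
    rw [h0] at h1
    exact h1
  · have h1 := hcd1.eventually_apply_eq_iff_implicitFunction (by simp) hinv
    rw [h0] at h1
    filter_upwards [h1] with v hv h
    exact hv.1 h

end Vale.Agent.P097.H779
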