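import Vale.Agent.P097.H779.Impl

/-! # P097 / H779 : inversion of the modulus -/

set_option linter.all false

open scoped Topology ComplexConjugate
open Filter

namespace Vale.Agent.P097.H779

theorem inv1 (f : ℂ → ℂ) (b : ℂ) (hf : AnalyticAt ℂ f b) (h' : deriv f b ≠ 0) :
    ∃ g : ℂ → ℂ, AnalyticAt ℂ g (f b) ∧ g (f b) = b ∧ (∀ᶠ x in 𝓝 b, g (f x) = x) ∧
      ∀ᶠ y in 𝓝 (f b), f (g y) = y :=
  ⟨hf.hasStrictDerivAt.localInverse _ _ _ h', hf.analyticAt_localInverse h',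
    HasStrictFDerivAt.localInverse_apply_image ..,
    HasStrictDerivAt.eventually_left_inverse .., HasStrictDerivAt.eventually_right_inverse ..⟩

theorem tendsto_conj_nhds (b : ℝ) : Tendsto (fun z : ℂ => conj z) (𝓝 (b : ℂ)) (𝓝 (b : ℂ)) := by
  have h : ContinuousAt (fun z : ℂ => conj z) (b : ℂ) := Complex.continuous_conj.continuousAt
  have h2 : Tendsto (fun z : ℂ => conj z) (𝓝 (b : ℂ)) (𝓝 (conj (b : ℂ))) := h
  rwa [Complex.conj_ofReal] at h2

/-- Schwarz reflection at a real point. -/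
theorem conj_sym (f : ℂ → ℂ) (b : ℝ) (hf : AnalyticAt ℂ f b)
    (hre : ∀ᶠ x : ℝ in 𝓝 b, conj (f x) = f x) :
    ∀ᶠ z in 𝓝 (b : ℂ), f (conj z) = conj (f z) := by
  have hF : AnalyticAt ℂ (fun z => conj (f (conj z))) (b : ℂ) := by
    rw [Complex.analyticAt_iff_eventually_differentiableAt]
    have h1 := (tendsto_conj_nhds b).eventually hf.eventually_analyticAt
    filter_upwards [h1] with z hz
    have h2 : DifferentiableAt ℂ (conj ∘ f ∘ conj) z :=
      differentiableAt_conj_conj_iff.2 hz.differentiableAt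
    exact h2
  have hev : ∀ᶠ z in 𝓝 (b : ℂ), f z = conj (f (conj z)) := by
    refine (hf.frequently_eq_iff_eventually_eq hF).1 ?_
    have ht : Tendsto (fun x : ℝ => (x : ℂ)) (𝓝[≠] b) (𝓝[≠] (b : ℂ)) := by
      refine tendsto_nhdsWithin_iff.2 ⟨?_, ?_⟩
      · exact (Complex.continuous_ofReal.tendsto b).mono_left nhdsWithin_le_nhds
      · filter_upwards [self_mem_nhdsWithin] with x hx
        simpa using hx
    refine ht.frequently (Eventually.frequently ?_)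
    filter_upwards [hre.filter_mono nhdsWithin_le_nhds] with x hx
    rw [Complex.conj_ofReal, hx]
  have h3 := (tendsto_conj_nhds b).eventually hev
  filter_upwards [h3] with z hz
  rw [hz, Complex.conj_conj]

/-- `J ↦ b(J)`. -/
theorem bt_ex (f : ℂ → ℂ) (b0 A B : ℝ) (hA : 0 < A) (hf : AnalyticAt ℂ f b0)
    (h' : deriv f b0 ≠ 0) (hfb : f b0 = ((B / A : ℝ) : ℂ))
    (hsym : ∀ᶠ z in 𝓝 (b0 : ℂ), f (conj z) = conj (f z)) :
    ∃ bt : ℂ → ℂ, AnalyticAt ℂ bt 0 ∧ bt 0 = b0 ∧ (∀ J, bt (-J) = bt J) ∧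
      (∀ᶠ J in 𝓝 (0 : ℂ), f (bt J) * (A - J ^ 2 * (A ^ 2 - B ^ 2)) = B) ∧
      (∀ᶠ J in 𝓝 (0 : ℂ), bt (conj J) = conj (bt J)) := by
  obtain ⟨g, hg, hgb, hgl, hgr⟩ := inv1 f b0 hf h'
  have hA' : (A : ℂ) ≠ 0 := by exact_mod_cast hA.ne'
  set μ : ℂ → ℂ := fun J => B / (A - J ^ 2 * (A ^ 2 - B ^ 2)) with hμ
  have hden : (A : ℂ) - (0 : ℂ) ^ 2 * (A ^ 2 - B ^ 2) ≠ 0 := by simpa using hA'
  have hμan : AnalyticAt ℂ μ 0 := by
    apply AnalyticAt.div
    · fun_prop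
    · fun_prop
    · exact hden
  have hμ0 : μ 0 = f b0 := by rw [hfb]; simp [hμ]
  have hμt : Tendsto μ (𝓝 0) (𝓝 (f b0)) := by
    have := hμan.continuousAt.tendsto
    rwa [hμ0] at this
  have hbt : AnalyticAt ℂ (fun J => g (μ J)) 0 := by
    apply AnalyticAt.comp' (g := g) _ hμan
    rw [hμ0]; exact hg
  have hbtt : Tendsto (fun J => g (μ J)) (𝓝 0) (𝓝 (b0 : ℂ)) := by
    have := hbt.continuousAt.tendsto
    simp only [hμ0, hgb] at this
    exact this
  have hconj0 : Tendsto (fun z : ℂ => conj z) (𝓝 (0 : ℂ)) (𝓝 (0 : ℂ)) := by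
    simpa using tendsto_conj_nhds 0
  have hμc : ∀ J, μ (conj J) = conj (μ J) := by
    intro J
    simp [hμ]
  refine ⟨fun J => g (μ J), hbt, by simp only [hμ0, hgb], ?_, ?_, ?_⟩
  · intro J
    simp [hμ]
  · have hne : ∀ᶠ J : ℂ in 𝓝 0, (A : ℂ) - J ^ 2 * (A ^ 2 - B ^ 2) ≠ 0 := by
      have hc : ContinuousAt (fun J : ℂ => (A : ℂ) - J ^ 2 * (A ^ 2 - B ^ 2)) 0 := by fun_prop
      exact hc.eventually_ne hden
    filter_upwards [hne, hμt.eventually hgr] with J h1 h2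
    rw [h2]
    simp only [hμ]
    field_simp
  · -- `conj (g (μ J)) = g (f (conj (g (μ J)))) = g (conj (f (g (μ J)))) = g (conj (μ J))`
    have h1 := hμt.eventually hgr
    have h2 := hbtt.eventually hsym
    have h3 := ((tendsto_conj_nhds b0).comp hbtt).eventually hgl
    filter_upwards [h1, h2, h3] with J h1 h2 h3
    simp only [Function.comp] at h3
    rw [hμc, ← h3, h2, h1]

end Vale.Agent.P097.H779
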