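import Vale.Agent.P097.H60.Zed
import Vale.Agent.P097.H500.Collar

/-! # P097 / H779 : the real phase functions -/

set_option linter.all false

open scoped Topology Real
open Filter Set

namespace Vale.Agent.P097.H779

open Vale.Agent.P097 Vale.Agent.P097.LR

/-- Conclusion of RPOS. -/
structure Ph (b : ℝ) (Ψ : ℝ → ℝ) : Prop where
  an : ∀ x, AnalyticAt ℝ Ψ x
  dpos : ∀ x, 0 < deriv Ψ x
  zero : Ψ 0 = 0
  per : ∀ x, Ψ (x + 1) = Ψ x + 2 * π
  odd : ∀ x, Ψ (-x) = -Ψ x
  eq : ∀ x : ℝ, Et b x = Complex.exp (Ψ x * Complex.I)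

/-- The phase function of `b`. -/
noncomputable def PS (hR : RPOS) (b : ℝ) : ℝ → ℝ :=
  if h : 0 < b then (hR b h).2.choose else id

theorem PS_ph (hR : RPOS) {b : ℝ} (h : 0 < b) : Ph b (PS hR b) := by
  have h1 := (hR b h).2.choose_spec
  unfold PS
  rw [dif_pos h]
  exact ⟨h1.1, h1.2.1, h1.2.2.1, h1.2.2.2.1, h1.2.2.2.2.1, h1.2.2.2.2.2⟩

theorem exp_slit {θ : ℝ} (h1 : -π < θ) (h2 : θ < π) :
    Complex.exp (θ * Complex.I) ∈ Complex.slitPlane ∧ Complex.arg (Complex.exp (θ * Complex.I)) = θ := by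
  have h3 : Complex.arg (Complex.exp (θ * Complex.I)) = θ := by
    rw [Complex.exp_mul_I]
    exact Complex.arg_cos_add_sin_mul_I ⟨h1, h2.le⟩
  refine ⟨?_, h3⟩
  rw [Complex.mem_slitPlane_iff_arg, h3]
  exact ⟨h2.ne, Complex.exp_ne_zero _⟩

namespace Ph

variable {b : ℝ} {Ψ : ℝ → ℝ} (H : Ph b Ψ)

include H in
theorem mono : StrictMono Ψ := strictMono_of_deriv_pos H.dpos

include H in
theorem cont : Continuous Ψ := continuous_iff_continuousAt.2 fun x => (H.an x).continuousAt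

include H in
theorem add_int (x : ℝ) (k : ℤ) : Ψ (x + k) = Ψ x + 2 * π * k := by
  induction k with
  | zero => simp
  | succ k ih =>
    have := H.per (x + (k : ℤ))
    push_cast at *
    rw [← add_assoc, this, ih]; ring
  | pred k ih =>
    have := H.per (x + ((-(k : ℤ) - 1 : ℤ) : ℝ))
    push_cast at *
    have e : x + (-(k : ℝ) - 1) + 1 = x + -(k : ℝ) := by ring
    rw [e, ih] at this
    linarith

include H in
theorem half (hE : EFac) (hb : 0 < b) (x : ℝ) : Ψ (x + 1 / 2) = Ψ x + π := by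
  have h1 := (hE.2 (b : ℂ) (by simpa using hb)).1 (x : ℂ)
  have h2 : Et b (((x + 1 / 2 : ℝ)) : ℂ) = -Et b (x : ℂ) := by
    rw [← h1]; congr 1; push_cast; ring
  rw [H.eq, H.eq] at h2
  have h3 : -Complex.exp (Ψ x * Complex.I) = Complex.exp (Ψ x * Complex.I + π * Complex.I) := by
    rw [Complex.exp_add, Complex.exp_pi_mul_I]; ring
  rw [h3, Complex.exp_eq_exp_iff_exists_int] at h2
  obtain ⟨n, hn⟩ := h2
  have h4 : Ψ (x + 1 / 2) = Ψ x + π + 2 * π * n := by
    have h5 : ((Ψ (x + 1 / 2) : ℝ) : ℂ) * Complex.I =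
        ((Ψ x + π + 2 * π * n : ℝ) : ℂ) * Complex.I := by
      rw [hn]; push_cast; ring
    exact_mod_cast mul_right_cancel₀ Complex.I_ne_zero h5
  have h6 : Ψ x < Ψ (x + 1 / 2) := H.mono (by linarith)
  have h7 : Ψ (x + 1 / 2) < Ψ (x + 1) := H.mono (by linarith)
  rw [H.per] at h7
  have hpi := Real.pi_pos
  have h8 : (-1 : ℝ) < n := by
    by_contra hc
    push Not at hc
    have : 2 * π * n ≤ 2 * π * (-1) := by gcongr
    linarith
  have h9 : (n : ℝ) < 1 := by
    by_contra hc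
    push Not at hc
    have : 2 * π * 1 ≤ 2 * π * n := by gcongr
    linarith
  have h10 : n = 0 := by
    have a1 : (-1 : ℤ) < n := by exact_mod_cast h8
    have a2 : n < (1 : ℤ) := by exact_mod_cast h9
    omega
  rw [h4, h10]; simp

include H in
theorem quarter (hE : EFac) (hb : 0 < b) : Ψ (1 / 4) = π / 2 := by
  have h1 := H.half hE hb (-(1 / 4))
  rw [H.odd] at h1
  have e : -(1 / 4 : ℝ) + 1 / 2 = 1 / 4 := by norm_num
  rw [e] at h1
  linarith

include H in
theorem surj : Function.Surjective Ψ := by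
  intro y
  have hpi := Real.pi_pos
  obtain ⟨k, hk⟩ : ∃ k : ℤ, (k : ℝ) = ⌊y / (2 * π)⌋ := ⟨_, rfl⟩
  have h1 : 2 * π * k ≤ y := by
    rw [hk]
    have := Int.floor_le (y / (2 * π))
    rw [le_div_iff₀ (by positivity)] at this
    linarith
  have h2 : y ≤ 2 * π * (k + 1 : ℤ) := by
    push_cast
    rw [hk]
    have := (Int.lt_floor_add_one (y / (2 * π))).le
    rw [div_le_iff₀ (by positivity)] at this
    linarith
  have e1 := H.add_int 0 k
  have e2 := H.add_int 0 (k + 1)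
  rw [H.zero, zero_add, zero_add] at e1 e2
  have h3 : (k : ℝ) ≤ ((k + 1 : ℤ) : ℝ) := by push_cast; linarith
  obtain ⟨x, -, hx⟩ := intermediate_value_Icc h3 H.cont.continuousOn
    (show y ∈ Icc (Ψ k) (Ψ ((k + 1 : ℤ) : ℝ)) from ⟨by rw [e1]; exact h1, by rw [e2]; exact h2⟩)
  exact ⟨x, hx⟩

include H in
theorem near0 {x : ℝ} (hE : EFac) (hb : 0 < b) (h1 : -(1 / 2) < x) (h2 : x < 1 / 2) :
    Et b x ∈ Complex.slitPlane ∧ Complex.arg (Et b x) = Ψ x := by
  rw [H.eq]
  have e1 : Ψ (1 / 2) = π := by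
    have := H.half hE hb 0
    rw [zero_add, H.zero, zero_add] at this
    exact this
  have h3 := H.mono h1
  have h4 := H.mono h2
  rw [H.odd, e1] at h3
  rw [e1] at h4
  exact exp_slit h3 h4

include H in
theorem near1 {x : ℝ} (h1 : 0 < x) (h2 : x < 1) :
    -Et b x ∈ Complex.slitPlane ∧ Complex.arg (-Et b x) + π = Ψ x := by
  have e : -Et b x = Complex.exp (((Ψ x - π : ℝ) : ℂ) * Complex.I) := by
    rw [H.eq]
    push_cast
    rw [sub_mul, Complex.exp_sub, Complex.exp_pi_mul_I]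
    ring
  rw [e]
  have h3 := H.mono h1
  have h4 := H.mono h2
  have h5 := H.per 0
  rw [zero_add, H.zero] at h5
  rw [H.zero] at h3
  rw [h5] at h4
  obtain ⟨h6, h7⟩ := exp_slit (θ := Ψ x - π) (by linarith) (by linarith)
  exact ⟨h6, by rw [h7]; ring⟩

end Ph

section
variable {a c b₀ r : ℝ} {β J : ℂ → ℂ} (hE : EFac) (hR : RPOS) (hP : PAR a c b₀ r β J)

include hP in
theorem bre_pos {w : ℝ} (hw : |w| < r) : 0 < (β w).re := by
  have h := (H60.β_re hP (w := (w : ℂ)) (by simpa using hw)).1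
  have := hP.hb₀
  linarith

include hP in
theorem bre_eq {w : ℝ} (hw : |w| < r) : β w = ((β w).re : ℂ) := by
  apply Complex.ext
  · simp
  · simp [hP.βre w hw]

/-- The phase function of the leaf `w`. -/
noncomputable def PW (hR : RPOS) (β : ℂ → ℂ) (w : ℝ) : ℝ → ℝ := PS hR (β w).re

include hP in
theorem PW_ph {w : ℝ} (hw : |w| < r) : Ph (β w).re (PW hR β w) := PS_ph hR (bre_pos hP hw)

include hP in
theorem PW_eq {w : ℝ} (hw : |w| < r) (x : ℝ) :
    Et (β w) x = Complex.exp (PW hR β w x * Complex.I) := by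
  rw [bre_eq hP hw]
  exact (PW_ph hR hP hw).eq x

include hP in
theorem PW_even {w : ℝ} (hw : |w| < r) : PW hR β (-w) = PW hR β w := by
  unfold PW
  rw [Complex.ofReal_neg, hP.βev (w : ℂ) (by simpa using hw)]

include hE hP in
theorem E_cont {x w : ℝ} (hw : |w| < r) :
    ContinuousAt (fun p : ℝ × ℝ => Et (β p.2) p.1) (x, w) := by
  have h1 : ((x : ℂ), (w : ℂ)) ∈ H60.DF b₀ r := by
    have := hP.hb₀
    refine ⟨⟨?_, ?_⟩, by simpa using hw⟩
    · simp only [Complex.ofReal_im]; linarith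
    · simp only [Complex.ofReal_im]; linarith
  have h2 : ContinuousAt (fun p : ℂ × ℂ => Et (β p.2) p.1) ((x : ℂ), (w : ℂ)) :=
    ((H60.F_jd hE hP).differentiableAt ((H60.isOpen_DF _ _).mem_nhds h1)).continuousAt
  have h3 : ContinuousAt (fun p : ℝ × ℝ => ((p.1 : ℂ), (p.2 : ℂ))) (x, w) := by fun_prop
  exact ContinuousAt.comp (g := fun p : ℂ × ℂ => Et (β p.2) p.1)
    (f := fun p : ℝ × ℝ => ((p.1 : ℂ), (p.2 : ℂ))) (x := (x, w)) h2 h3

include hE hP in
/-- Joint continuity of the phase. -/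
theorem PW_cont {x w : ℝ} (hw : |w| < r) :
    ContinuousAt (fun p : ℝ × ℝ => PW hR β p.2 p.1) (x, w) := by
  obtain ⟨m, hm⟩ : ∃ m : ℤ, m = ⌊x⌋ := ⟨_, rfl⟩
  have hm1 : (m : ℝ) ≤ x := by rw [hm]; exact Int.floor_le x
  have hm2 : x < m + 1 := by rw [hm]; exact Int.lt_floor_add_one x
  have hwopen : ∀ᶠ p : ℝ × ℝ in 𝓝 (x, w), |p.2| < r :=
    (continuous_snd.abs.continuousAt (x := (x, w))).eventually (gt_mem_nhds hw)
  have hfst : Tendsto (fun p : ℝ × ℝ => p.1) (𝓝 (x, w)) (𝓝 x) := continuous_fst.continuousAt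
  have hsh : ContinuousAt (fun p : ℝ × ℝ => Et (β p.2) ((p.1 - m : ℝ) : ℂ)) (x, w) := by
    have h3 : ContinuousAt (fun p : ℝ × ℝ => (p.1 - (m : ℝ), p.2)) (x, w) := by fun_prop
    exact ContinuousAt.comp (g := fun p : ℝ × ℝ => Et (β p.2) p.1)
      (f := fun p : ℝ × ℝ => (p.1 - (m : ℝ), p.2)) (x := (x, w)) (E_cont hE hP hw) h3
  rcases hm1.eq_or_lt with h0 | h0
  · have hev : ∀ᶠ p : ℝ × ℝ in 𝓝 (x, w), |p.2| < r ∧ -(1 / 2) < p.1 - m ∧ p.1 - m < 1 / 2 := by
      have e1 := hfst.eventually (lt_mem_nhds (show (m : ℝ) - 1 / 2 < x by linarith))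
      have e2 := hfst.eventually (gt_mem_nhds (show x < (m : ℝ) + 1 / 2 by linarith))
      filter_upwards [hwopen, e1, e2] with p p1 p2 p3
      exact ⟨p1, by linarith, by linarith⟩
    have hx := hev.self_of_nhds
    have hc : ContinuousAt (fun p : ℝ × ℝ =>
        Complex.arg (Et (β p.2) ((p.1 - m : ℝ) : ℂ)) + 2 * π * m) (x, w) := by
      refine ContinuousAt.add ?_ continuousAt_const
      refine ContinuousAt.comp (g := Complex.arg) ?_ hsh
      apply Complex.continuousAt_arg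
      have := ((PW_ph hR hP hw).near0 hE (bre_pos hP hw) hx.2.1 hx.2.2).1
      rwa [← bre_eq hP hw] at this
    refine hc.congr ?_
    filter_upwards [hev] with p hp
    have h4 := ((PW_ph hR hP hp.1).near0 hE (bre_pos hP hp.1) hp.2.1 hp.2.2).2
    rw [← bre_eq hP hp.1] at h4
    rw [h4, ← (PW_ph hR hP hp.1).add_int]
    congr 1; ring
  · have hev : ∀ᶠ p : ℝ × ℝ in 𝓝 (x, w), |p.2| < r ∧ 0 < p.1 - m ∧ p.1 - m < 1 := by
      have e1 := hfst.eventually (lt_mem_nhds h0)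
      have e2 := hfst.eventually (gt_mem_nhds hm2)
      filter_upwards [hwopen, e1, e2] with p p1 p2 p3
      exact ⟨p1, by linarith, by linarith⟩
    have hx := hev.self_of_nhds
    have hc : ContinuousAt (fun p : ℝ × ℝ =>
        Complex.arg (-Et (β p.2) ((p.1 - m : ℝ) : ℂ)) + π + 2 * π * m) (x, w) := by
      refine (ContinuousAt.add ?_ continuousAt_const).add continuousAt_const
      refine ContinuousAt.comp (g := Complex.arg) ?_ hsh.neg
      apply Complex.continuousAt_arg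
      have := ((PW_ph hR hP hw).near1 hx.2.1 hx.2.2).1
      rwa [← bre_eq hP hw] at this
    refine hc.congr ?_
    filter_upwards [hev] with p hp
    have h4 := ((PW_ph hR hP hp.1).near1 hp.2.1 hp.2.2).2
    rw [← bre_eq hP hp.1] at h4
    rw [h4, ← (PW_ph hR hP hp.1).add_int]
    congr 1; ring

end

end Vale.Agent.P097.H779
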